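import Vale.Agent.Lib.P089.A2.Main

/-!
# P089, Part A3: homology of the Cayley graph is generated by the copies
-/

namespace P089

open scoped Classical
open MulOpposite

section Chain

variable {S : Type} {V : Type}

/-- a dart as a chain -/
noncomputable def dart (v : V) (s : S) : V → S → ZMod 2 :=
  fun v' s' => if v' = v ∧ s' = s then 1 else 0

/-- an edge as a chain -/
noncomputable def edge (act : V → S → V) (v : V) (s : S) : V → S → ZMod 2 :=
  dart v s + dart (act v s) s

/-- the chain of a path -/
noncomputable def chain (act : V → S → V) : V → List S → (V → S → ZMod 2)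
  | _, [] => 0
  | v, s :: w => edge act v s + chain act (act v s) w

theorem chain_add_self (z : V → S → ZMod 2) : z + z = 0 := by
  funext v s
  exact CharTwo.add_self_eq_zero _

theorem edge_back {act : V → S → V} (hinv : ∀ v s, act (act v s) s = v) (v : V) (s : S) :
    edge act (act v s) s = edge act v s := by
  unfold edge
  rw [hinv, add_comm]

theorem chain_append (act : V → S → V) (v : V) (w w' : List S) :
    chain act v (w ++ w') = chain act v w + chain act (go act v w) w' := by
  induction w generalizing v with
  | nil => simp [chain, go_nil]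
  | cons s w ih => rw [List.cons_append, chain, chain, ih, go_cons, add_assoc]

theorem go_reverse {act : V → S → V} (hinv : ∀ v s, act (act v s) s = v) (v : V) (w : List S) :
    go act (go act v w) w.reverse = v := by
  induction w generalizing v with
  | nil => rfl
  | cons s w ih => rw [List.reverse_cons, go_append, go_cons act v, ih, go_cons, go_nil, hinv]

theorem chain_reverse {act : V → S → V} (hinv : ∀ v s, act (act v s) s = v) (v : V)
    (w : List S) : chain act (go act v w) w.reverse = chain act v w := by
  induction w generalizing v with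
  | nil => rfl
  | cons s w ih =>
    rw [List.reverse_cons, chain_append, go_cons, ih, go_reverse hinv, chain, chain, chain,
      edge_back hinv, add_zero, add_comm]

theorem edge_symm {act : V → S → V} (hinv : ∀ v s, act (act v s) s = v) (v : V) (s : S) (u : V)
    (t : S) : edge act v s (act u t) t = edge act v s u t := by
  have h1 : (act u t = v ∧ t = s) ↔ (u = act v s ∧ t = s) := by
    constructor
    · rintro ⟨rfl, rfl⟩
      exact ⟨(hinv u t).symm, rfl⟩
    · rintro ⟨rfl, rfl⟩
      exact ⟨hinv v t, rfl⟩
  have h2 : (act u t = act v s ∧ t = s) ↔ (u = v ∧ t = s) := by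
    constructor
    · rintro ⟨h, rfl⟩
      have := congrArg (fun a => act a t) h
      simp only [hinv] at this
      exact ⟨this, rfl⟩
    · rintro ⟨rfl, rfl⟩
      exact ⟨rfl, rfl⟩
  change (if act u t = v ∧ t = s then (1 : ZMod 2) else 0) +
      (if act u t = act v s ∧ t = s then 1 else 0) =
    (if u = v ∧ t = s then 1 else 0) + (if u = act v s ∧ t = s then 1 else 0)
  simp only [h1, h2]
  exact add_comm _ _

variable [Fintype S]

theorem sum_dart (v : V) (s : S) (u : V) : ∑ t, dart v s u t = if u = v then 1 else 0 := by
  unfold dart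
  by_cases h : u = v
  · simp [h]
  · simp [h]

theorem sum_edge (act : V → S → V) (v : V) (s : S) (u : V) :
    ∑ t, edge act v s u t = (if u = v then 1 else 0) + if u = act v s then 1 else 0 := by
  unfold edge
  simp only [Pi.add_apply, Finset.sum_add_distrib, sum_dart]

end Chain

section Push

variable {S : Type} {Pg : PG S}

/-- the chain of a path of the position graph -/
noncomputable def pchain (Pg : PG S) : Pg.P → List S → (Pg.P → S → ZMod 2)
  | _, [] => 0
  | x, s :: w =>
    match Pg.nb x s with
    | some x' => dart x s + dart x' s + pchain Pg x' w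
    | none => 0

theorem pchain_cons {x x' : Pg.P} {s : S} (h : Pg.nb x s = some x') (w : List S) :
    pchain Pg x (s :: w) = dart x s + dart x' s + pchain Pg x' w := by
  rw [pchain, h]

theorem walk_cons {V : Type} (nb : V → S → Option V) (v : V) (s : S) (w : List S) :
    walk nb v (s :: w) = (nb v s).bind fun v' => walk nb v' w := rfl

theorem walk_cons_some {x x' : Pg.P} {s : S} (h : Pg.nb x s = some x') (w : List S) :
    walk Pg.nb x (s :: w) = walk Pg.nb x' w := by
  rw [walk_cons, h]
  rfl

theorem walk_cons_elim {x y : Pg.P} {s : S} {w : List S} (h : walk Pg.nb x (s :: w) = some y) :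
    ∃ x', Pg.nb x s = some x' ∧ walk Pg.nb x' w = some y := by
  rw [walk_cons] at h
  exact Option.bind_eq_some_iff.1 h

theorem pchain_supp {x : Pg.P} {w : List S} {q : Pg.P} {s : S} (h : pchain Pg x w q s ≠ 0) :
    (Pg.nb q s).isSome ∧ ∃ w', walk Pg.nb x w' = some q := by
  induction w generalizing x with
  | nil => exact absurd rfl h
  | cons t w ih =>
    cases hx : Pg.nb x t with
    | none =>
      rw [pchain, hx] at h
      exact absurd rfl h
    | some x' =>
      rw [pchain_cons hx] at h
      by_cases h1 : q = x ∧ s = t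
      · obtain ⟨rfl, rfl⟩ := h1
        exact ⟨by rw [hx]; rfl, [], rfl⟩
      by_cases h2 : q = x' ∧ s = t
      · obtain ⟨rfl, rfl⟩ := h2
        exact ⟨by rw [Pg.symm _ _ _ hx]; rfl, [s], by rw [walk_cons_some hx]; rfl⟩
      have h3 : pchain Pg x' w q s ≠ 0 := by
        intro h4
        apply h
        simp only [Pi.add_apply, dart, if_neg h1, if_neg h2, h4, add_zero]
      obtain ⟨h5, w', h6⟩ := ih h3
      exact ⟨h5, t :: w', by rw [walk_cons_some hx]; exact h6⟩

theorem pchain_symm {x y : Pg.P} {w : List S} (hw : walk Pg.nb x w = some y) {q q' : Pg.P} {s : S}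
    (h : Pg.nb q s = some q') : pchain Pg x w q' s = pchain Pg x w q s := by
  induction w generalizing x with
  | nil => rfl
  | cons t w ih =>
    obtain ⟨x', hx, hw'⟩ := walk_cons_elim hw
    rw [pchain_cons hx]
    have h1 : (q' = x ∧ s = t) ↔ (q = x' ∧ s = t) := by
      constructor
      · rintro ⟨rfl, rfl⟩
        exact ⟨Option.some.inj ((Pg.symm _ _ _ h).symm.trans hx), rfl⟩
      · rintro ⟨rfl, rfl⟩
        exact ⟨Option.some.inj (h.symm.trans (Pg.symm _ _ _ hx)), rfl⟩
    have h2 : (q' = x' ∧ s = t) ↔ (q = x ∧ s = t) := by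
      constructor
      · rintro ⟨rfl, rfl⟩
        exact ⟨Option.some.inj ((Pg.symm _ _ _ h).symm.trans (Pg.symm _ _ _ hx)), rfl⟩
      · rintro ⟨rfl, rfl⟩
        exact ⟨Option.some.inj (h.symm.trans hx), rfl⟩
    simp only [Pi.add_apply, dart, h1, h2, ih hw']
    rw [add_comm (if q = x' ∧ s = t then (1 : ZMod 2) else 0)]

theorem pchain_bd [Fintype S] {x y : Pg.P} {w : List S} (hw : walk Pg.nb x w = some y) (q : Pg.P) :
    ∑ s, pchain Pg x w q s = (if q = x then 1 else 0) + if q = y then 1 else 0 := by
  induction w generalizing x with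
  | nil =>
    obtain rfl : x = y := Option.some.inj hw
    rw [CharTwo.add_self_eq_zero]
    simp [pchain]
  | cons t w ih =>
    obtain ⟨x', hx, hw'⟩ := walk_cons_elim hw
    rw [pchain_cons hx]
    simp only [Pi.add_apply, Finset.sum_add_distrib, sum_dart, ih hw']
    rw [add_assoc, ← add_assoc (if q = x' then (1 : ZMod 2) else 0), CharTwo.add_self_eq_zero,
      zero_add]

theorem pchain_pcyc [Fintype S] {x : Pg.P} {w : List S} (hw : walk Pg.nb x w = some x) :
    PCyc Pg x (pchain Pg x w) where
  supp _ _ h := pchain_supp h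
  symm _ _ _ h := pchain_symm hw h
  bd q := by rw [pchain_bd hw, CharTwo.add_self_eq_zero]

theorem chain_eq_pchain {V : Type} {act : V → S → V} (M : Model Pg V act) {v : V} {x y : Pg.P}
    {w : List S} (hw : walk Pg.nb x w = some y) {w' : List S} {q : Pg.P}
    (hq : walk Pg.nb x w' = some q) (t : S) :
    chain act v w (go act v w') t = pchain Pg x w q t := by
  induction w generalizing x v w' with
  | nil => rfl
  | cons s w ih =>
    obtain ⟨x', hx, hw'⟩ := walk_cons_elim hw
    rw [pchain_cons hx, chain]
    have hback : Pg.nb x' s = some x := Pg.symm _ _ _ hx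
    have hq' : walk Pg.nb x' (s :: w') = some q := by
      rw [walk_cons_some hback]
      exact hq
    have hgo : go act (act v s) (s :: w') = go act v w' := by
      rw [go_cons, M.inv]
    have h1 := ih (v := act v s) hw' hq'
    rw [hgo] at h1
    have h2 : go act v w' = v ↔ q = x := M.full v x w' q hq
    have h3 : go act v w' = act v s ↔ q = x' := by
      rw [← hgo]
      exact M.full (act v s) x' (s :: w') q hq'
    simp only [Pi.add_apply, h1, edge, dart, h2, h3]

theorem chain_supp {V : Type} {act : V → S → V} {v : V} {x y : Pg.P}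
    {w : List S} (hw : walk Pg.nb x w = some y) {u : V} {t : S} (h : chain act v w u t ≠ 0) :
    ∃ w' q, walk Pg.nb x w' = some q ∧ u = go act v w' := by
  induction w generalizing x v with
  | nil => exact absurd rfl h
  | cons s w ih =>
    obtain ⟨x', hx, hw'⟩ := walk_cons_elim hw
    rw [chain] at h
    by_cases h1 : u = v ∧ t = s
    · exact ⟨[], x, rfl, h1.1⟩
    by_cases h2 : u = act v s ∧ t = s
    · exact ⟨[s], x', by rw [walk_cons_some hx]; rfl, h2.1⟩
    have h3 : chain act (act v s) w u t ≠ 0 := by
      intro h4
      apply h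
      simp only [Pi.add_apply, edge, dart, if_neg h1, if_neg h2, h4, add_zero]
    obtain ⟨w', q, h5, h6⟩ := ih hw' h3
    exact ⟨s :: w', q, by rw [walk_cons_some hx]; exact h5, h6⟩

theorem chain_isPush {V : Type} {act : V → S → V} (M : Model Pg V act) (v : V) {x : Pg.P}
    {w : List S} (hw : walk Pg.nb x w = some x) :
    IsPush Pg act v x (pchain Pg x w) (chain act v w) :=
  ⟨fun _ _ s hq => chain_eq_pchain M hw hq s, fun _ _ h => chain_supp hw h⟩

end Push

section Gen

variable {S : Type} [Fintype S] (Pg : PG S)

/-- the span of the cycles of copies -/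
def pushSpan {V : Type} (act : V → S → V) : Submodule (ZMod 2) (V → S → ZMod 2) :=
  Submodule.span (ZMod 2)
    {z' : V → S → ZMod 2 | ∃ v x y, PCyc Pg x y ∧ IsPush Pg act v x y z'}

variable {Pg}

theorem chain_mem_of_closed {V : Type} {act : V → S → V} (M : Model Pg V act) (v : V) {x : Pg.P}
    {w : List S} (hw : walk Pg.nb x w = some x) : chain act v w ∈ pushSpan Pg act :=
  Submodule.subset_span ⟨v, x, pchain Pg x w, pchain_pcyc hw, chain_isPush M v hw⟩

/-- the colour action on classes of chains times the group -/
noncomputable def act2 (Pg : PG S) :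
    (((Gam Pg → S → ZMod 2) ⧸ pushSpan Pg (cay Pg)) × Gam Pg) → S →
      (((Gam Pg → S → ZMod 2) ⧸ pushSpan Pg (cay Pg)) × Gam Pg) :=
  fun p s => (p.1 + Submodule.Quotient.mk (edge (cay Pg) p.2 s), cay Pg p.2 s)

theorem act2_inv (M : Model Pg (Gam Pg) (cay Pg)) (p) (s : S) :
    act2 Pg (act2 Pg p s) s = p := by
  obtain ⟨c, g⟩ := p
  unfold act2
  refine Prod.ext ?_ (M.inv g s)
  change c + Submodule.Quotient.mk (edge (cay Pg) g s) +
    Submodule.Quotient.mk (edge (cay Pg) (cay Pg g s) s) = c
  rw [edge_back M.inv, add_assoc, ← Submodule.Quotient.mk_add, chain_add_self,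
    Submodule.Quotient.mk_zero, add_zero]

theorem go_act2 (c) (g : Gam Pg) (w : List S) :
    go (act2 Pg) (c, g) w =
      (c + Submodule.Quotient.mk (chain (cay Pg) g w), go (cay Pg) g w) := by
  induction w generalizing c g with
  | nil => simp [go_nil, chain]
  | cons s w ih =>
    rw [go_cons, go_cons, chain, act2, ih, Submodule.Quotient.mk_add, add_assoc]

theorem chain_mem_of_wd (M : Model Pg (Gam Pg) (cay Pg)) {w : List S} (hw : wd Pg w = 1)
    (g : Gam Pg) : chain (cay Pg) g w ∈ pushSpan Pg (cay Pg) := by
  have hcl : ∀ x w, walk Pg.nb x w = some x → ∀ p, go (act2 Pg) p w = p := by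
    rintro x w h ⟨c, g⟩
    rw [go_act2, (Submodule.Quotient.mk_eq_zero _).2 (chain_mem_of_closed M g h), add_zero,
      (M.full g x w x h).2 rfl]
  have h1 := ract_wd Pg (act2_inv M) hcl w (0, g)
  rw [hw, map_one, unop_one, Equiv.Perm.one_apply, go_act2, zero_add] at h1
  exact (Submodule.Quotient.mk_eq_zero _).1 (congrArg Prod.fst h1).symm

omit [Fintype S] in
theorem gen_ne (M : Model Pg (Gam Pg) (cay Pg)) (g : Gam Pg) (s : S) : cay Pg g s ≠ g := by
  obtain ⟨x, hx⟩ := Pg.col s
  obtain ⟨y, hy⟩ := Option.isSome_iff_exists.1 hx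
  intro h
  have h1 := (M.full g x [s] y (by rw [walk_cons_some hy]; rfl)).1 (by rw [go_cons, go_nil, h])
  rw [h1] at hy
  exact Pg.irr x s hy

theorem symm_mem (M : Model Pg (Gam Pg) (cay Pg)) (u : Gam Pg → List S)
    (hu : ∀ g, wd Pg (u g) = g) (n : ℕ) :
    ∀ (z : Gam Pg → S → ZMod 2) (F : Finset (Gam Pg)), (∀ g s, z (cay Pg g s) s = z g s) →
      (∀ g, g ∉ F → ∀ s, z g s = 0) →
      ((F ×ˢ (Finset.univ : Finset S)).filter fun p => z p.1 p.2 ≠ 0).card ≤ n →
      z + ∑ g ∈ F, (∑ s, z g s) • chain (cay Pg) 1 (u g) ∈ pushSpan Pg (cay Pg) := by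
  induction n with
  | zero =>
    intro z F hs hF hn
    have hz : z = 0 := by
      funext g s
      by_cases hg : g ∈ F
      · by_contra h
        have h1 : (g, s) ∈ (F ×ˢ (Finset.univ : Finset S)).filter fun p => z p.1 p.2 ≠ 0 := by
          simp only [Finset.mem_filter, Finset.mem_product, Finset.mem_univ, and_true]
          exact ⟨hg, h⟩
        have h2 := Finset.card_pos.2 ⟨_, h1⟩
        omega
      · exact hF g hg s
    rw [hz]
    simp
  | succ n ih =>
    intro z F hs hF hn
    by_cases hz : ∃ g s, z g s ≠ 0
    · obtain ⟨g, s, h⟩ := hz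
      have h1 : z g s = 1 := by
        have : ∀ a : ZMod 2, a ≠ 0 → a = 1 := by decide
        exact this _ h
      have hg : g ∈ F := by
        by_contra h2
        exact h (hF g h2 s)
      have hg2 : cay Pg g s ∈ F := by
        by_contra h2
        exact h (hs g s ▸ hF _ h2 s)
      have hne : cay Pg g s ≠ g := gen_ne M g s
      have he : ∀ g' s', (z + edge (cay Pg) g s) g' s' =
          if (g' = g ∧ s' = s) ∨ (g' = cay Pg g s ∧ s' = s) then 0 else z g' s' := by
        intro g' s'
        simp only [Pi.add_apply, edge, dart]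
        by_cases h2 : g' = g ∧ s' = s
        · obtain ⟨rfl, rfl⟩ := h2
          rw [if_pos ⟨rfl, rfl⟩, if_neg (fun h3 => hne h3.1.symm), if_pos (Or.inl ⟨rfl, rfl⟩), h1,
            add_zero]
          exact CharTwo.add_self_eq_zero _
        · by_cases h3 : g' = cay Pg g s ∧ s' = s
          · obtain ⟨rfl, rfl⟩ := h3
            rw [if_neg h2, if_pos ⟨rfl, rfl⟩, if_pos (Or.inr ⟨rfl, rfl⟩), hs, h1, zero_add]
            exact CharTwo.add_self_eq_zero _
          · rw [if_neg h2, if_neg h3, if_neg (not_or.2 ⟨h2, h3⟩), add_zero, add_zero]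
      have h4 := ih (z + edge (cay Pg) g s) F (fun g' s' => by
        rw [Pi.add_apply, Pi.add_apply, Pi.add_apply, Pi.add_apply, hs, edge_symm M.inv]) (by
          intro g' hg' s'
          rw [he]
          split_ifs
          · rfl
          · exact hF g' hg' s') (by
          have h5 : ((F ×ˢ (Finset.univ : Finset S)).filter
              fun p => (z + edge (cay Pg) g s) p.1 p.2 ≠ 0) ⊂
              ((F ×ˢ (Finset.univ : Finset S)).filter fun p => z p.1 p.2 ≠ 0) := by
            rw [Finset.ssubset_iff_of_subset]
            · refine ⟨(g, s), ?_, ?_⟩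
              · simp only [Finset.mem_filter, Finset.mem_product, Finset.mem_univ, and_true]
                exact ⟨hg, h⟩
              · simp only [Finset.mem_filter, not_and, not_not]
                intro _
                rw [he]
                exact if_pos (Or.inl ⟨rfl, rfl⟩)
            · intro p hp
              simp only [Finset.mem_filter] at hp ⊢
              refine ⟨hp.1, ?_⟩
              have h6 := hp.2
              rw [he] at h6
              intro h7
              apply h6
              split_ifs
              · rfl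
              · exact h7
          have h6 := Finset.card_lt_card h5
          omega)
      have h7 : edge (cay Pg) g s + (chain (cay Pg) 1 (u g) + chain (cay Pg) 1 (u (cay Pg g s))) ∈
          pushSpan Pg (cay Pg) := by
        have h8 : wd Pg (u g ++ (s :: (u (cay Pg g s)).reverse)) = 1 := by
          have h9 : go (cay Pg) 1 (u g ++ (s :: (u (cay Pg g s)).reverse)) = 1 := by
            rw [go_append, go_cay Pg 1 (u g), hu, one_mul, go_cons]
            have h10 : cay Pg g s = go (cay Pg) 1 (u (cay Pg g s)) := by
              rw [go_cay, hu, one_mul]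
            conv_lhs => rw [h10]
            have h11 := go_reverse M.inv (1 : Gam Pg) (u (cay Pg g s))
            rw [← h10]
            rw [← h10] at h11
            exact h11
          rw [go_cay, one_mul] at h9
          exact h9
        have h12 := chain_mem_of_wd M h8 1
        rw [chain_append, go_cay, hu, one_mul, chain] at h12
        have h13 : chain (cay Pg) (cay Pg g s) (u (cay Pg g s)).reverse =
            chain (cay Pg) 1 (u (cay Pg g s)) := by
          have h14 := chain_reverse M.inv (1 : Gam Pg) (u (cay Pg g s))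
          rw [go_cay, hu, one_mul] at h14
          exact h14
        rw [h13] at h12
        have h15 : chain (cay Pg) 1 (u g) + (edge (cay Pg) g s +
            chain (cay Pg) 1 (u (cay Pg g s))) =
            edge (cay Pg) g s + (chain (cay Pg) 1 (u g) + chain (cay Pg) 1 (u (cay Pg g s))) := by
          abel
        rw [← h15]
        exact h12
      have h16 : ∑ g' ∈ F, (∑ t, (z + edge (cay Pg) g s) g' t) • chain (cay Pg) 1 (u g') =
          ∑ g' ∈ F, (∑ t, z g' t) • chain (cay Pg) 1 (u g') +
            (chain (cay Pg) 1 (u g) + chain (cay Pg) 1 (u (cay Pg g s))) := by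
        simp only [Pi.add_apply, Finset.sum_add_distrib, sum_edge, add_smul, ite_smul, one_smul,
          zero_smul, Finset.sum_ite_eq', if_pos hg, if_pos hg2]
      rw [h16] at h4
      have h17 := Submodule.add_mem _ h4 h7
      have h18 : z + edge (cay Pg) g s + (∑ g' ∈ F, (∑ t, z g' t) • chain (cay Pg) 1 (u g') +
            (chain (cay Pg) 1 (u g) + chain (cay Pg) 1 (u (cay Pg g s)))) +
          (edge (cay Pg) g s + (chain (cay Pg) 1 (u g) + chain (cay Pg) 1 (u (cay Pg g s)))) =
          z + ∑ g' ∈ F, (∑ t, z g' t) • chain (cay Pg) 1 (u g') +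
            ((edge (cay Pg) g s + (chain (cay Pg) 1 (u g) + chain (cay Pg) 1 (u (cay Pg g s)))) +
            (edge (cay Pg) g s + (chain (cay Pg) 1 (u g) +
              chain (cay Pg) 1 (u (cay Pg g s))))) := by
        abel
      rw [h18, chain_add_self, add_zero] at h17
      exact h17
    · push Not at hz
      have hz0 : z = 0 := by
        funext g s
        exact hz g s
      rw [hz0]
      simp

end Gen

theorem partA3 : PartA3 := by
  intro S _ Pg M z hz
  choose u hu using exists_wd Pg
  set F : Finset (Gam Pg) := (hz.fin.toFinset.image Prod.fst) with hFdef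
  have hF : ∀ g, g ∉ F → ∀ s, z g s = 0 := by
    intro g hg s
    by_contra h
    exact hg (Finset.mem_image.2 ⟨(g, s), hz.fin.mem_toFinset.2 h, rfl⟩)
  have h1 := symm_mem M u hu _ z F hz.symm hF le_rfl
  simp only [hz.bd, zero_smul, Finset.sum_const_zero, add_zero] at h1
  exact h1

end P089
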